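import Vale.Agent.Lib.P226.TentInner
import Vale.Agent.Lib.P226.Law
import Vale.Agent.Lib.P226K.Moment

/-!
The tent floor for four centered vectors: the gain of the vertex `z` over the other three is at most
`(32 / (9π)) |z|⁴ / √det`, where `det` is the Gram determinant of any three of the vectors.
-/

open MeasureTheory Set ProbabilityTheory WithLp

namespace Vale.Agent.Lib.P226

variable {d : ℕ}

theorem fl_lintegral_pi_cons {n : ℕ} (F : (Fin (n + 1) → ℝ) → ENNReal) (hF : Measurable F) :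
    ∫⁻ t, F t ∂(Measure.pi fun _ => gstd) =
      ∫⁻ a, ∫⁻ y : Fin n → ℝ, F (Fin.cons a y) ∂(Measure.pi fun _ => gstd) ∂gstd := by
  have m := measurePreserving_piFinSuccAbove (fun _ : Fin (n + 1) => gstd) 0
  rw [← m.symm.lintegral_comp hF]
  have hmeas : Measurable (fun z => F ((MeasurableEquiv.piFinSuccAbove (fun _ => ℝ) 0).symm z)) :=
    hF.comp (MeasurableEquiv.measurable _)
  rw [lintegral_prod _ hmeas.aemeasurable]
  refine lintegral_congr fun a => lintegral_congr fun y => ?_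
  congr 1
  ext i
  refine Fin.cases ?_ (fun j => ?_) i
  · simp [MeasurableEquiv.piFinSuccAbove]
  · simp [MeasurableEquiv.piFinSuccAbove]

theorem fl_measurable_cons {n : ℕ} (a : ℝ) :
    Measurable (fun y : Fin n → ℝ => (Fin.cons a y : Fin (n + 1) → ℝ)) := by
  refine measurable_pi_iff.2 fun i => ?_
  refine Fin.cases ?_ (fun j => ?_) i
  · simp
  · simpa using measurable_pi_apply j

theorem lintegral_pi3 (G : ℝ → ℝ → ℝ → ENNReal)
    (hG : Measurable (fun t : Fin 3 → ℝ => G (t 0) (t 1) (t 2))) :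
    ∫⁻ t : Fin 3 → ℝ, G (t 0) (t 1) (t 2) ∂(Measure.pi fun _ => gstd) =
      ∫⁻ a, ∫⁻ b, ∫⁻ c, G a b c ∂gstd ∂gstd ∂gstd := by
  rw [fl_lintegral_pi_cons _ hG]
  refine lintegral_congr fun a => ?_
  have h2 : Measurable (fun y : Fin 2 → ℝ => G a (y 0) (y 1)) := hG.comp (fl_measurable_cons a)
  have e2 : (fun y : Fin 2 → ℝ => G ((Fin.cons a y : Fin 3 → ℝ) 0) ((Fin.cons a y : Fin 3 → ℝ) 1)
      ((Fin.cons a y : Fin 3 → ℝ) 2)) = fun y => G a (y 0) (y 1) := rfl
  rw [e2, fl_lintegral_pi_cons _ h2]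
  refine lintegral_congr fun b => ?_
  have h1 : Measurable (fun y : Fin 1 → ℝ => G a b (y 0)) := h2.comp (fl_measurable_cons b)
  have e3 : (fun y : Fin 1 → ℝ => G a ((Fin.cons b y : Fin 2 → ℝ) 0) ((Fin.cons b y : Fin 2 → ℝ) 1))
      = fun y => G a b (y 0) := rfl
  rw [e3, fl_lintegral_pi_cons _ h1]
  refine lintegral_congr fun e => ?_
  have e4 : (fun y : Fin 0 → ℝ => G a b ((Fin.cons e y : Fin 1 → ℝ) 0)) = fun _ => G a b e := rfl
  rw [e4]
  simp

theorem tentT_eq_pyr {C s : ℝ} (hs : |C| ≤ s) (hs0 : 0 < s) (u v : ℝ) :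
    tentT C s u v = pyr C u v := by
  rw [tentT_eq_sub hs0]
  have : pyr (C - 3 * s) (u - s) (v - s) = 0 := by
    apply pyr_eq_zero
    by_contra hcon
    push Not at hcon
    obtain ⟨h1, h2, h3⟩ := hcon
    have := le_abs_self C
    linarith
  rw [this, sub_zero]

theorem Hfun_eq_of_large {C s : ℝ} (hs : |C| ≤ s) (hs0 : 0 < s) :
    Hfun C s = (max C 0) ^ 3 / 18 := by
  unfold Hfun
  have := le_abs_self C
  rw [if_pos hs0, max_eq_right (show C - 3 * s ≤ 0 by linarith)]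
  ring

/-- The inner bound for the pyramid. -/
theorem inner_bound_pyr (C α β b1 b2 b3 : ℝ) (h1 : 0 < b1) (h3 : 0 < b3) :
    ∫⁻ c, ∫⁻ d, ENNReal.ofReal (pyr C (α - b1 * c) (β - b2 * c - b3 * d)) ∂gstd ∂gstd ≤
      ENNReal.ofReal ((1 / (2 * Real.pi * b1 * b3)) * ((max C 0) ^ 3 / 18)) := by
  have hs0 : 0 < |C| + 1 := by positivity
  have hs : |C| ≤ |C| + 1 := by linarith
  have := inner_bound C (|C| + 1) α β b1 b2 b3 h1 h3
  simpa only [tentT_eq_pyr hs hs0, Hfun_eq_of_large hs hs0] using this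

/-- The function of three inner products. -/
noncomputable def PhiF (t : Fin 3 → ℝ) : ℝ := pyr (4 * t 0) (t 0 - t 1) (t 0 - t 2)

theorem PhiF_nonneg (t : Fin 3 → ℝ) : 0 ≤ PhiF t := pyr_nonneg _ _ _

theorem measurable_PhiF : Measurable PhiF := by
  unfold PhiF pyr
  fun_prop

/-- Model vectors in Cholesky form. -/
noncomputable def vecs3 (a p1 b p2 r c : ℝ) : Fin 3 → E 3 :=
  ![toLp 2 ![a, 0, 0], toLp 2 ![p1, b, 0], toLp 2 ![p2, r, c]]

theorem inner_toLp_vec3 (t : Fin 3 → ℝ) (p q r : ℝ) :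
    inner ℝ (toLp 2 t : E 3) (toLp 2 ![p, q, r]) = t 0 * p + t 1 * q + t 2 * r := by
  simp [PiLp.inner_apply, Fin.sum_univ_three]
  ring

theorem gram_vecs3 (a p1 b p2 r c : ℝ) :
    (∀ i j : Fin 3, inner ℝ (vecs3 a p1 b p2 r c i) (vecs3 a p1 b p2 r c j) =
      (![![a ^ 2, a * p1, a * p2],
        ![a * p1, p1 ^ 2 + b ^ 2, p1 * p2 + b * r],
        ![a * p2, p1 * p2 + b * r, p2 ^ 2 + r ^ 2 + c ^ 2]] : Fin 3 → Fin 3 → ℝ) i j) := by
  have h00 : vecs3 a p1 b p2 r c 0 = toLp 2 ![a, 0, 0] := rfl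
  have h01 : vecs3 a p1 b p2 r c 1 = toLp 2 ![p1, b, 0] := rfl
  have h02 : vecs3 a p1 b p2 r c 2 = toLp 2 ![p2, r, c] := rfl
  intro i j
  fin_cases i <;> fin_cases j <;>
    simp only [Fin.zero_eta, Fin.mk_one, Fin.reduceFinMk, h00, h01, h02, inner_toLp_vec3] <;>
    simp <;> ring

/-- The model bound. -/
theorem floor_model (a p1 b p2 r c : ℝ) (ha : 0 < a) (hb : 0 < b) (hc : 0 < c) :
    ∫ x : E 3, PhiF (fun i => inner ℝ x (vecs3 a p1 b p2 r c i)) ∂(gam 3) ≤
      (1 / (2 * Real.pi * b * c)) * ((4 * a) ^ 3 / 18 * (2 / Real.sqrt (2 * Real.pi))) := by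
  set v := vecs3 a p1 b p2 r c with hv
  set κ := 1 / (2 * Real.pi * b * c) with hκ
  have hκpos : 0 < κ := by positivity
  have hs : 0 < Real.sqrt (2 * Real.pi) := Real.sqrt_pos.2 (by positivity)
  let BB : ℝ → ℝ := fun p => κ * ((4 * a) ^ 3 / 18 * (max 0 p) ^ 3)
  have hBB0 : ∀ p, 0 ≤ BB p := fun p => by
    have : 0 ≤ max 0 p := le_max_left _ _
    simp only [BB]
    positivity
  have hBBi : Integrable BB gstd :=
    ((Vale.Agent.Lib.P226K.integrable_pos_cube_gaussianReal 1).const_mul _).const_mul _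
  have hBBm : Measurable BB := by
    simp only [BB]
    fun_prop
  have hBBint : ∫ p, BB p ∂gstd =
      κ * ((4 * a) ^ 3 / 18 * (2 / Real.sqrt (2 * Real.pi))) := by
    simp only [BB]
    rw [integral_const_mul, integral_const_mul]
    have h := Vale.Agent.Lib.P226K.integral_pos_cube_gaussian
    have h2 : ∫ t, (max 0 t) ^ 3 ∂(gaussianReal 0 1) = 2 / Real.sqrt (2 * Real.pi) := by
      rw [eq_div_iff hs.ne', mul_comm]
      exact h
    rw [h2]
  have hnn : 0 ≤ᵐ[gam 3] fun x : E 3 => PhiF (fun i => inner ℝ x (v i)) :=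
    Filter.Eventually.of_forall fun x => PhiF_nonneg _
  have hmeasx : Measurable (fun x : E 3 => PhiF (fun i => inner ℝ x (v i))) :=
    measurable_PhiF.comp (measurable_pi_iff.2 fun i => by fun_prop)
  rw [integral_eq_lintegral_of_nonneg_ae hnn hmeasx.aestronglyMeasurable, ← hBBint]
  apply ENNReal.toReal_le_of_le_ofReal (integral_nonneg hBB0)
  rw [ofReal_integral_eq_lintegral_ofReal hBBi (Filter.Eventually.of_forall hBB0)]
  have hmap : gam 3 = (Measure.pi fun _ : Fin 3 => gstd).map (toLp 2) :=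
    (map_pi_eq_stdGaussian).symm
  have htoLp : Measurable (toLp 2 : (Fin 3 → ℝ) → E 3) := by fun_prop
  have hmeasx' : Measurable (fun x : E 3 => ENNReal.ofReal (PhiF fun i => inner ℝ x (v i))) :=
    ENNReal.measurable_ofReal.comp hmeasx
  rw [hmap, lintegral_map hmeasx' htoLp]
  let Ψ : ℝ → ℝ → ℝ → ℝ := fun p q s =>
    pyr (4 * (a * p)) ((a - p1) * p - b * q) ((a - p2) * p - r * q - c * s)
  have hpt : ∀ t : Fin 3 → ℝ, PhiF (fun i => inner ℝ (toLp 2 t : E 3) (v i)) = Ψ (t 0) (t 1) (t 2) := by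
    intro t
    have h0 : inner ℝ (toLp 2 t : E 3) (v 0) = t 0 * a := by
      have : v 0 = toLp 2 ![a, 0, 0] := rfl
      rw [this, inner_toLp_vec3]; ring
    have h1 : inner ℝ (toLp 2 t : E 3) (v 1) = t 0 * p1 + t 1 * b := by
      have : v 1 = toLp 2 ![p1, b, 0] := rfl
      rw [this, inner_toLp_vec3]; ring
    have h2 : inner ℝ (toLp 2 t : E 3) (v 2) = t 0 * p2 + t 1 * r + t 2 * c := by
      have : v 2 = toLp 2 ![p2, r, c] := rfl
      rw [this, inner_toLp_vec3]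
    unfold PhiF
    simp only [Ψ, h0, h1, h2]
    congr 1
    · ring
    · ring
    · ring
  simp only [hpt]
  have hΨm : Measurable (fun t : Fin 3 → ℝ => ENNReal.ofReal (Ψ (t 0) (t 1) (t 2))) := by
    have : Measurable (fun t : Fin 3 → ℝ => Ψ (t 0) (t 1) (t 2)) := by
      have hc : Continuous (fun z : ℝ × ℝ × ℝ => Ψ z.1 z.2.1 z.2.2) := by
        simp only [Ψ, pyr]
        fun_prop
      have hm : Measurable (fun t : Fin 3 → ℝ => ((t 0, t 1, t 2) : ℝ × ℝ × ℝ)) :=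
        (measurable_pi_apply 0).prodMk ((measurable_pi_apply 1).prodMk (measurable_pi_apply 2))
      exact hc.measurable.comp hm
    exact ENNReal.measurable_ofReal.comp this
  rw [lintegral_pi3 (fun p q s => ENNReal.ofReal (Ψ p q s)) hΨm]
  refine lintegral_mono fun p => ?_
  refine (inner_bound_pyr (4 * (a * p)) ((a - p1) * p) ((a - p2) * p) b r c hb hc).trans ?_
  apply ENNReal.ofReal_le_ofReal
  apply le_of_eq
  simp only [BB]
  have e : max (4 * (a * p)) 0 = 4 * a * max 0 p := by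
    rw [max_comm, mul_max_of_nonneg _ _ (by positivity : (0 : ℝ) ≤ 4 * a), mul_zero]
    congr 1
    ring
  rw [e]
  ring

/-- The integrand in terms of three inner products. -/
theorem integrand_eq (z : E d) (v : Fin 3 → E d) (hsum : z + ∑ l, v l = 0) (x : E d) :
    max 0 (inner ℝ x z - mx v x) = PhiF (fun i => inner ℝ x ((![z, v 0, v 1] : Fin 3 → E d) i)) := by
  have e0 : inner ℝ x ((![z, v 0, v 1] : Fin 3 → E d) 0) = inner ℝ x z := rfl
  have e1 : inner ℝ x ((![z, v 0, v 1] : Fin 3 → E d) 1) = inner ℝ x (v 0) := rfl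
  have e2 : inner ℝ x ((![z, v 0, v 1] : Fin 3 → E d) 2) = inner ℝ x (v 1) := rfl
  have h3 : v 2 = -(z + v 0 + v 1) := by
    rw [Fin.sum_univ_three] at hsum
    have : z + (v 0 + v 1 + v 2) = (z + v 0 + v 1) + v 2 := by abel
    rw [this] at hsum
    exact eq_neg_of_add_eq_zero_right hsum
  have hmx : mx v x = max (inner ℝ x (v 0)) (max (inner ℝ x (v 1)) (inner ℝ x (v 2))) := by
    unfold mx
    apply le_antisymm
    · apply Finset.sup'_le
      intro i _
      fin_cases i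
      · exact le_max_left _ _
      · exact le_max_of_le_right (le_max_left _ _)
      · exact le_max_of_le_right (le_max_right _ _)
    · apply max_le _ (max_le _ _)
      · exact Finset.le_sup' (fun i : Fin 3 => (inner ℝ x (v i) : ℝ)) (Finset.mem_univ 0)
      · exact Finset.le_sup' (fun i : Fin 3 => (inner ℝ x (v i) : ℝ)) (Finset.mem_univ 1)
      · exact Finset.le_sup' (fun i : Fin 3 => (inner ℝ x (v i) : ℝ)) (Finset.mem_univ 2)
  unfold PhiF pyr
  simp only [e0, e1, e2]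
  rw [hmx, ← min_sub_sub_left, ← min_sub_sub_left]
  congr 3
  rw [h3, inner_neg_right, inner_add_right, inner_add_right]
  ring

/-- Tent floor for four centered vectors. -/
theorem floor4 {d : ℕ} (z : E d) (v : Fin 3 → E d) (hsum : z + ∑ l, v l = 0)
    (h1 : 0 < ‖z‖ ^ 2)
    (h2 : 0 < ‖z‖ ^ 2 * ‖v 0‖ ^ 2 - (inner ℝ z (v 0) : ℝ) ^ 2)
    (h3 : 0 < det3 (‖z‖ ^ 2) (‖v 0‖ ^ 2) (‖v 1‖ ^ 2) (inner ℝ z (v 0)) (inner ℝ z (v 1))
      (inner ℝ (v 0) (v 1))) :
    Real.sqrt (2 * Real.pi) * ∫ x, max 0 (inner ℝ x z - mx v x) ∂(gam d)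
      ≤ (32 / (9 * Real.pi)) * ‖z‖ ^ 4 /
        Real.sqrt (det3 (‖z‖ ^ 2) (‖v 0‖ ^ 2) (‖v 1‖ ^ 2) (inner ℝ z (v 0)) (inner ℝ z (v 1))
          (inner ℝ (v 0) (v 1))) := by
  have ha : 0 < ‖z‖ := by
    by_contra hc
    have : ‖z‖ = 0 := le_antisymm (not_lt.mp hc) (norm_nonneg _)
    rw [this] at h1
    simp at h1
  set a := ‖z‖ with haa
  set R1 := ‖v 0‖ ^ 2 with hR1
  set R2 := ‖v 1‖ ^ 2 with hR2
  set w1 : ℝ := inner ℝ z (v 0) with hw1
  set w2 : ℝ := inner ℝ z (v 1) with hw2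
  set m : ℝ := inner ℝ (v 0) (v 1) with hm
  -- Cholesky factors
  set p1 := w1 / a with hp1
  have hw1' : w1 = a * p1 := by rw [hp1]; field_simp
  have hb2 : 0 < R1 - p1 ^ 2 := by
    have : a ^ 2 * (R1 - p1 ^ 2) = a ^ 2 * R1 - w1 ^ 2 := by rw [hw1']; ring
    have h4 : 0 < a ^ 2 * (R1 - p1 ^ 2) := by rw [this]; exact h2
    exact (pos_iff_pos_of_mul_pos h4).1 h1
  set b := Real.sqrt (R1 - p1 ^ 2) with hb
  have hbpos : 0 < b := Real.sqrt_pos.2 hb2
  have hbsq : b ^ 2 = R1 - p1 ^ 2 := Real.sq_sqrt hb2.le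
  have hR1' : R1 = p1 ^ 2 + b ^ 2 := by rw [hbsq]; ring
  set p2 := w2 / a with hp2
  have hw2' : w2 = a * p2 := by rw [hp2]; field_simp
  set r := (m - p1 * p2) / b with hr
  have hm' : m = p1 * p2 + b * r := by rw [hr]; field_simp; ring
  have hdetE : det3 (a ^ 2) R1 R2 w1 w2 m = (a * b) ^ 2 * (R2 - p2 ^ 2 - r ^ 2) := by
    rw [hR1', hw1', hw2', hm']
    unfold det3
    ring
  have hc2 : 0 < R2 - p2 ^ 2 - r ^ 2 := by
    rw [hdetE] at h3
    have h5 : 0 < (a * b) ^ 2 := by positivity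
    exact (pos_iff_pos_of_mul_pos h3).1 h5
  set c := Real.sqrt (R2 - p2 ^ 2 - r ^ 2) with hc
  have hcpos : 0 < c := Real.sqrt_pos.2 hc2
  have hcsq : c ^ 2 = R2 - p2 ^ 2 - r ^ 2 := Real.sq_sqrt hc2.le
  have hR2' : R2 = p2 ^ 2 + r ^ 2 + c ^ 2 := by rw [hcsq]; ring
  have hdet : det3 (a ^ 2) R1 R2 w1 w2 m = (a * b * c) ^ 2 := by
    rw [hdetE, ← hcsq]; ring
  have hsqrt : Real.sqrt (det3 (a ^ 2) R1 R2 w1 w2 m) = a * b * c := by
    rw [hdet, Real.sqrt_sq (by positivity)]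
  rw [hsqrt]
  -- transport to the model
  let u : Fin 3 → E d := ![z, v 0, v 1]
  set V := vecs3 a p1 b p2 r c with hV
  have hgram : ∀ i j, inner ℝ (u i) (u j) = (inner ℝ (V i) (V j) : ℝ) := by
    intro i j
    rw [hV, gram_vecs3]
    have e1 : (inner ℝ z z : ℝ) = a ^ 2 := by rw [real_inner_self_eq_norm_sq]
    have e2 : (inner ℝ (v 0) (v 0) : ℝ) = R1 := by rw [real_inner_self_eq_norm_sq]
    have e3 : (inner ℝ (v 1) (v 1) : ℝ) = R2 := by rw [real_inner_self_eq_norm_sq]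
    have e4 : (inner ℝ (v 0) z : ℝ) = w1 := real_inner_comm _ _
    have e5 : (inner ℝ (v 1) z : ℝ) = w2 := real_inner_comm _ _
    have e6 : (inner ℝ (v 1) (v 0) : ℝ) = m := real_inner_comm _ _
    fin_cases i <;> fin_cases j <;>
      simp [u, e1, e2, e3, e4, e5, e6, ← hw1, ← hw2, ← hm, hw1', hw2', hm', hR1', hR2'] <;>
      first | rfl | exact hR1' | exact hR2'
  have hint : (fun x : E d => max 0 (inner ℝ x z - mx v x)) =
      fun x => PhiF (fun i => inner ℝ x (u i)) := by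
    funext x
    exact integrand_eq z v hsum x
  rw [hint, integral_congr_gram u V hgram PhiF measurable_PhiF]
  have hmodel := floor_model a p1 b p2 r c ha hbpos hcpos
  have hs : 0 < Real.sqrt (2 * Real.pi) := Real.sqrt_pos.2 (by positivity)
  have hle := mul_le_mul_of_nonneg_left hmodel hs.le
  refine hle.trans (le_of_eq ?_)
  have hpi : Real.pi ≠ 0 := Real.pi_ne_zero
  field_simp
  ring

end Vale.Agent.Lib.P226
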