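/-!
A branch and bound checker on natural numbers for the closure of the case of four cells.
The cell measures are integers in units of `1 / 4096`, the squared norms in units of `1 / SS`.
-/

namespace Vale.Agent.Lib.P226.K4Grid

/-- The scale of the cell measures. -/
def DD : Nat := 4096

/-- The scale of the squared norms, `1250 * 4096 ^ 4`. -/
def SS : Nat := 351843720888320000

/-- The number `9 / 8` in the scale `SS`. -/
def C98 : Nat := 395824185999360000

/-- The strict comparison. -/
def lt (a b : Nat) : Bool := Nat.ble (a + 1) b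

/-- The minimum. -/
def nmn (a b : Nat) : Nat := bif Nat.ble a b then a else b

/-- The first cap, `16 x² (1 - x)²` in the scale `SS`. -/
def fN (n : Nat) : Nat := 20000 * (n * n) * ((DD - n) * (DD - n))

/-- The second cap, `4 (3927/1250) x²` in the scale `SS`. -/
def gN (n : Nat) : Nat := 15708 * (n * n) * (DD * DD)

/-- The cap function in the scale `SS`. -/
def UN (n : Nat) : Nat := bif Nat.ble (2 * n) DD then nmn (fN n) (gN n) else SS

/-- The box is empty. -/
def ruleEmpty (bl bu cl cu el eu : Nat) : Bool :=
  lt bu cl || lt cu el || lt DD (2 * bl + cl + el)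

/-- The total is at most `9 / 4`. -/
def ruleTotal (au bu cu eu : Nat) : Bool :=
  Nat.ble (4 * (UN au + UN bu + UN cu + UN eu)) (9 * SS)

/-- The tangent rule at `t = (1 - el) / 3`. -/
def ruleTan (cl el eu : Nat) : Bool :=
  let T := DD - el
  Nat.ble (3 * (cl * cl) + 2 * T * cl + 3 * (DD * DD) + T * T) (6 * DD * cl + 4 * T * DD) &&
    Nat.ble (3 * (DD * DD) + 4 * (T * T)) (12 * T * DD) &&
    Nat.ble (80000 * (T * T) * ((3 * DD - T) * (3 * DD - T)) + 108 * UN eu) (243 * SS)

/-- The floor rule. -/
def ruleFloor (au bu cu eu : Nat) : Bool :=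
  let Ue := UN eu
  let X := C98 - (UN cu + Ue)
  let Y := C98 - (UN bu + Ue)
  let Z := C98 - (UN au + Ue)
  Nat.ble (2883 * Ue * SS) (1000 * (X * Y + X * Z + Y * Z))

/-- All the rules on one box. -/
def leaf (bl bu cl cu el eu : Nat) : Bool :=
  ruleEmpty bl bu cl cu el eu ||
    (let au := DD - (bl + cl + el)
     ruleTotal au bu cu eu || ruleTan cl el eu || ruleFloor au bu cu eu)

/-- The recursion. -/
def chk : Nat → Nat → Nat → Nat → Nat → Nat → Nat → Bool
  | 0, bl, bu, cl, cu, el, eu => leaf bl bu cl cu el eu
  | fuel + 1, bl, bu, cl, cu, el, eu =>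
    leaf bl bu cl cu el eu ||
      (let wb := bu - bl
       let wc := cu - cl
       let we := eu - el
       bif Nat.ble wc wb && Nat.ble we wb then
         (chk fuel bl ((bl + bu) / 2) cl cu el eu && chk fuel ((bl + bu) / 2) bu cl cu el eu)
       else bif Nat.ble we wc then
         (chk fuel bl bu cl ((cl + cu) / 2) el eu && chk fuel bl bu ((cl + cu) / 2) cu el eu)
       else
         (chk fuel bl bu cl cu el ((el + eu) / 2) && chk fuel bl bu cl cu ((el + eu) / 2) eu))

/-- The statement checked by the kernel. -/
theorem chk_all : chk 30 0 2048 0 2048 0 564 = true := by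
  decide +kernel

end Vale.Agent.Lib.P226.K4Grid
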