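import Mathlib
import Vale.Agent.Lib.P226K4.Grid

/-!
The closure of the case of four cells: the numeric constraints on the cell measures and the squared
norms of an extremal family are contradictory.
-/

namespace Vale.Agent.Lib.P226.K4Grid

/-- The cap function on the reals. -/
noncomputable def Ur (x : ℝ) : ℝ :=
  if x ≤ 1 / 2 then min (16 * x ^ 2 * (1 - x) ^ 2) (4 * (3927 / 1250) * x ^ 2) else 1

theorem DD_cast : ((DD : ℕ) : ℝ) = 4096 := by norm_num [DD]
theorem SS_cast : ((SS : ℕ) : ℝ) = 1250 * 4096 ^ 4 := by norm_num [SS]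
theorem C98_cast : ((C98 : ℕ) : ℝ) = (9 / 8) * (1250 * 4096 ^ 4) := by norm_num [C98]

theorem nmn_cast (a b : ℕ) : ((nmn a b : ℕ) : ℝ) = min (a : ℝ) (b : ℝ) := by
  unfold nmn
  cases h : Nat.ble a b with
  | true =>
    have h' : a ≤ b := Nat.le_of_ble_eq_true h
    simp [min_eq_left (Nat.cast_le.2 h' : (a : ℝ) ≤ b)]
  | false =>
    have h' : ¬ a ≤ b := fun h2 => by
      rw [Nat.ble_eq_true_of_le h2] at h; exact Bool.noConfusion h
    have h'' : b ≤ a := by omega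
    simp [min_eq_right (Nat.cast_le.2 h'' : (b : ℝ) ≤ a)]

theorem UN_cast (n : ℕ) : ((UN n : ℕ) : ℝ) = (1250 * 4096 ^ 4) * Ur ((n : ℝ) / 4096) := by
  unfold UN Ur
  cases h : Nat.ble (2 * n) DD with
  | true =>
    have h' : 2 * n ≤ DD := Nat.le_of_ble_eq_true h
    have hn : n ≤ 4096 := by simp only [DD] at h'; omega
    have hr : (n : ℝ) ≤ 2048 := by
      have : n ≤ 2048 := by simp only [DD] at h'; omega
      exact_mod_cast this
    rw [if_pos (by rw [div_le_iff₀ (by norm_num)]; linarith)]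
    simp only [cond_true, nmn_cast]
    have e1 : ((fN n : ℕ) : ℝ) = (1250 * 4096 ^ 4) * (16 * ((n : ℝ) / 4096) ^ 2 * (1 - (n : ℝ) / 4096) ^ 2) := by
      unfold fN
      have : ((DD - n : ℕ) : ℝ) = 4096 - (n : ℝ) := by
        rw [Nat.cast_sub (by simp only [DD]; omega), DD_cast]
      push_cast
      rw [this]
      field_simp
      ring
    have e2 : ((gN n : ℕ) : ℝ) = (1250 * 4096 ^ 4) * (4 * (3927 / 1250) * ((n : ℝ) / 4096) ^ 2) := by
      unfold gN
      push_cast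
      rw [DD_cast]
      field_simp
      ring
    rw [e1, e2, ← mul_min_of_nonneg _ _ (by positivity)]
  | false =>
    have h' : ¬ 2 * n ≤ DD := fun h2 => by
      rw [Nat.ble_eq_true_of_le h2] at h; exact Bool.noConfusion h
    have hr : (2048 : ℝ) < n := by
      have : 2048 < n := by simp only [DD] at h'; omega
      exact_mod_cast this
    rw [if_neg (by rw [not_le, lt_div_iff₀ (by norm_num)]; linarith)]
    simp only [cond_false, SS_cast, mul_one]

theorem Ur_mono {x y : ℝ} (hx : 0 ≤ x) (hxy : x ≤ y) : Ur x ≤ Ur y := by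
  unfold Ur
  by_cases hy : y ≤ 1 / 2
  · rw [if_pos (by linarith), if_pos hy]
    apply min_le_min
    · have h1 : x * (1 - x) ≤ y * (1 - y) := by nlinarith
      have h2 : 0 ≤ x * (1 - x) := mul_nonneg hx (by linarith)
      have h3 : (x * (1 - x)) ^ 2 ≤ (y * (1 - y)) ^ 2 := pow_le_pow_left₀ h2 h1 2
      nlinarith
    · have h3 : x ^ 2 ≤ y ^ 2 := pow_le_pow_left₀ hx hxy 2
      nlinarith
  · rw [if_neg hy]
    by_cases hx2 : x ≤ 1 / 2
    · rw [if_pos hx2]
      refine (min_le_left _ _).trans ?_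
      have h1 : x * (1 - x) ≤ 1 / 4 := by nlinarith [sq_nonneg (x - 1 / 2)]
      have h2 : 0 ≤ x * (1 - x) := mul_nonneg hx (by linarith)
      have h3 : (x * (1 - x)) ^ 2 ≤ (1 / 4) ^ 2 := pow_le_pow_left₀ h2 h1 2
      nlinarith
    · rw [if_neg hx2]

/-- The constraints. -/
structure Hyp (a b c e Ra Rb Rc Re X Y Z : ℝ) : Prop where
  he0 : 0 ≤ e
  hec : e ≤ c
  hcb : c ≤ b
  hba : b ≤ a
  hsum : a + b + c + e ≤ 1
  ha : Ra ≤ Ur a
  hb : Rb ≤ Ur b
  hc : Rc ≤ Ur c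
  he : Re ≤ Ur e
  hT : 9 / 4 < Ra + Rb + Rc + Re
  hX0 : 0 ≤ X
  hY0 : 0 ≤ Y
  hZ0 : 0 ≤ Z
  hX : 9 / 8 - Rc - Re ≤ X
  hY : 9 / 8 - Rb - Re ≤ Y
  hZ : 9 / 8 - Ra - Re ≤ Z
  hF : X * Y + X * Z + Y * Z < 2883 / 1000 * Re

/-- Membership in a box. -/
def InB (x : ℝ) (l u : ℕ) : Prop := (l : ℝ) ≤ x * 4096 ∧ x * 4096 ≤ (u : ℝ)

variable {a b c e Ra Rb Rc Re X Y Z : ℝ} {bl bu cl cu el eu : ℕ}

theorem lt_spec {p q : ℕ} (h : lt p q = true) : p + 1 ≤ q := Nat.le_of_ble_eq_true h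

theorem rule_empty (hH : Hyp a b c e Ra Rb Rc Re X Y Z) (hb : InB b bl bu) (hc : InB c cl cu)
    (he : InB e el eu) (h : ruleEmpty bl bu cl cu el eu = true) : False := by
  obtain ⟨hb1, hb2⟩ := hb
  obtain ⟨hc1, hc2⟩ := hc
  obtain ⟨he1, he2⟩ := he
  have h0 := hH.hec
  have h1 := hH.hcb
  have h2 := hH.hba
  have h3 := hH.hsum
  unfold ruleEmpty at h
  simp only [Bool.or_eq_true] at h
  rcases h with (h | h) | h
  · have := lt_spec h
    have h4 : (bu : ℝ) + 1 ≤ cl := by exact_mod_cast this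
    linarith
  · have := lt_spec h
    have h4 : (cu : ℝ) + 1 ≤ el := by exact_mod_cast this
    linarith
  · have := lt_spec h
    have h4 : (4096 : ℝ) + 1 ≤ 2 * bl + cl + el := by
      have h5 : 4096 + 1 ≤ 2 * bl + cl + el := by simpa [DD] using this
      exact_mod_cast h5
    linarith

/-- The bound of a square norm by the cap function at a grid point. -/
theorem R_le_UN {R x : ℝ} {n : ℕ} (hR : R ≤ Ur x) (hx : 0 ≤ x) (hn : x * 4096 ≤ n) :
    R * (1250 * 4096 ^ 4) ≤ ((UN n : ℕ) : ℝ) := by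
  rw [UN_cast]
  have h1 : x ≤ (n : ℝ) / 4096 := by rw [le_div_iff₀ (by norm_num)]; exact hn
  have h2 := Ur_mono hx h1
  have h3 := hR.trans h2
  nlinarith

theorem rule_total {au : ℕ} (hH : Hyp a b c e Ra Rb Rc Re X Y Z) (hb : InB b bl bu) (hc : InB c cl cu)
    (he : InB e el eu) (ha : a * 4096 ≤ au) (h : ruleTotal au bu cu eu = true) : False := by
  have h' : 4 * (UN au + UN bu + UN cu + UN eu) ≤ 9 * SS := Nat.le_of_ble_eq_true h
  have hR : (4 : ℝ) * (((UN au : ℕ) : ℝ) + (UN bu : ℕ) + (UN cu : ℕ) + (UN eu : ℕ)) ≤ 9 * (SS : ℕ) := by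
    exact_mod_cast h'
  rw [SS_cast] at hR
  have he0 := hH.he0
  have hc0 : 0 ≤ c := by linarith [hH.hec]
  have hb0 : 0 ≤ b := by linarith [hH.hcb]
  have ha0 : 0 ≤ a := by linarith [hH.hba]
  have h1 := R_le_UN hH.ha ha0 ha
  have h2 := R_le_UN hH.hb hb0 hb.2
  have h3 := R_le_UN hH.hc hc0 hc.2
  have h4 := R_le_UN hH.he he0 he.2
  have h5 := hH.hT
  nlinarith

theorem rule_floor {au : ℕ} (hH : Hyp a b c e Ra Rb Rc Re X Y Z) (hb : InB b bl bu) (hc : InB c cl cu)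
    (he : InB e el eu) (ha : a * 4096 ≤ au) (h : ruleFloor au bu cu eu = true) : False := by
  have he0 := hH.he0
  have hc0 : 0 ≤ c := by linarith [hH.hec]
  have hb0 : 0 ≤ b := by linarith [hH.hcb]
  have ha0 : 0 ≤ a := by linarith [hH.hba]
  have h1 := R_le_UN hH.ha ha0 ha
  have h2 := R_le_UN hH.hb hb0 hb.2
  have h3 := R_le_UN hH.hc hc0 hc.2
  have h4 := R_le_UN hH.he he0 he.2
  set S : ℝ := 1250 * 4096 ^ 4 with hS
  have hSpos : 0 < S := by rw [hS]; positivity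
  have key : ∀ (P Q : ℝ) (m : ℕ) (W : ℝ), P * S ≤ ((UN m : ℕ) : ℝ) → Q * S ≤ ((UN eu : ℕ) : ℝ) →
      0 ≤ W → 9 / 8 - P - Q ≤ W → ((C98 - (UN m + UN eu) : ℕ) : ℝ) ≤ W * S := by
    intro P Q m W hP hQ hW0 hW
    by_cases hle : UN m + UN eu ≤ C98
    · rw [Nat.cast_sub hle, C98_cast]
      push_cast
      nlinarith
    · have : C98 - (UN m + UN eu) = 0 := by omega
      rw [this]
      simpa using mul_nonneg hW0 hSpos.le
  have hX := key _ _ cu _ h3 h4 hH.hX0 hH.hX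
  have hY := key _ _ bu _ h2 h4 hH.hY0 hH.hY
  have hZ := key _ _ au _ h1 h4 hH.hZ0 hH.hZ
  unfold ruleFloor at h
  simp only at h
  have h' := Nat.le_of_ble_eq_true h
  set X0 : ℕ := C98 - (UN cu + UN eu) with hX0
  set Y0 : ℕ := C98 - (UN bu + UN eu) with hY0
  set Z0 : ℕ := C98 - (UN au + UN eu) with hZ0
  have hR : (2883 : ℝ) * ((UN eu : ℕ) : ℝ) * S ≤ 1000 * ((X0 : ℝ) * Y0 + X0 * Z0 + Y0 * Z0) := by
    have : ((2883 * UN eu * SS : ℕ) : ℝ) ≤ ((1000 * (X0 * Y0 + X0 * Z0 + Y0 * Z0) : ℕ) : ℝ) :=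
      Nat.cast_le.2 h'
    push_cast at this
    rwa [SS_cast] at this
  have hX00 : (0 : ℝ) ≤ X0 := Nat.cast_nonneg _
  have hY00 : (0 : ℝ) ≤ Y0 := Nat.cast_nonneg _
  have hZ00 : (0 : ℝ) ≤ Z0 := Nat.cast_nonneg _
  have hXS : 0 ≤ X * S := mul_nonneg hH.hX0 hSpos.le
  have hYS : 0 ≤ Y * S := mul_nonneg hH.hY0 hSpos.le
  have hZS : 0 ≤ Z * S := mul_nonneg hH.hZ0 hSpos.le
  have e1 : (X0 : ℝ) * Y0 ≤ (X * S) * (Y * S) := mul_le_mul hX hY hY00 hXS
  have e2 : (X0 : ℝ) * Z0 ≤ (X * S) * (Z * S) := mul_le_mul hX hZ hZ00 hXS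
  have e3 : (Y0 : ℝ) * Z0 ≤ (Y * S) * (Z * S) := mul_le_mul hY hZ hZ00 hYS
  have hF := hH.hF
  have h6 : (X * Y + X * Z + Y * Z) * S ^ 2 < 2883 / 1000 * Re * S ^ 2 :=
    mul_lt_mul_of_pos_right hF (by positivity)
  have h7 : 2883 / 1000 * Re * S ^ 2 ≤ 2883 / 1000 * ((UN eu : ℕ) : ℝ) * S := by
    have : Re * S * S ≤ ((UN eu : ℕ) : ℝ) * S := mul_le_mul_of_nonneg_right h4 hSpos.le
    nlinarith
  nlinarith

/-- The tangent line of the first cap. -/
theorem tangent_line {R x t c0 : ℝ} (ht0 : 0 ≤ t) (ht1 : t ≤ 1 / 2) (hx : c0 ≤ x) (hx0 : 0 ≤ x)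
    (hP1 : c0 ^ 2 + (2 * t - 2) * c0 + (1 - 4 * t + 3 * t ^ 2) ≤ 0)
    (hP2 : (1 / 2 : ℝ) ^ 2 + (2 * t - 2) * (1 / 2) + (1 - 4 * t + 3 * t ^ 2) ≤ 0)
    (hR : R ≤ Ur x) :
    R ≤ 16 * t ^ 2 * (1 - t) ^ 2 + 32 * t * (1 - t) * (1 - 2 * t) * (x - t) := by
  have hd : 0 ≤ 32 * t * (1 - t) * (1 - 2 * t) := by
    have h1 : 0 ≤ 1 - t := by linarith
    have h2 : 0 ≤ 1 - 2 * t := by linarith
    positivity
  have hmid : 16 * (1 / 2 : ℝ) ^ 2 * (1 - 1 / 2) ^ 2 ≤
      16 * t ^ 2 * (1 - t) ^ 2 + 32 * t * (1 - t) * (1 - 2 * t) * (1 / 2 - t) := by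
    have e : 16 * t ^ 2 * (1 - t) ^ 2 + 32 * t * (1 - t) * (1 - 2 * t) * (1 / 2 - t)
        - 16 * (1 / 2 : ℝ) ^ 2 * (1 - 1 / 2) ^ 2 =
        -(16 * (1 / 2 - t) ^ 2 * ((1 / 2 : ℝ) ^ 2 + (2 * t - 2) * (1 / 2) + (1 - 4 * t + 3 * t ^ 2))) := by
      ring
    have : 0 ≤ -(16 * (1 / 2 - t) ^ 2 * ((1 / 2 : ℝ) ^ 2 + (2 * t - 2) * (1 / 2) + (1 - 4 * t + 3 * t ^ 2))) := by
      have h3 : 0 ≤ 16 * (1 / 2 - t) ^ 2 := by positivity
      have := mul_nonneg h3 (neg_nonneg.2 hP2)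
      linarith
    linarith
  unfold Ur at hR
  by_cases hx2 : x ≤ 1 / 2
  · rw [if_pos hx2] at hR
    have hR2 := hR.trans (min_le_left _ _)
    have hPx : x ^ 2 + (2 * t - 2) * x + (1 - 4 * t + 3 * t ^ 2) ≤ 0 := by
      by_cases hc : c0 < 1 / 2
      · have hpos : 0 < 1 / 2 - c0 := by linarith
        have e : (1 / 2 - c0) * (x ^ 2 + (2 * t - 2) * x + (1 - 4 * t + 3 * t ^ 2)) =
            (1 / 2 - x) * (c0 ^ 2 + (2 * t - 2) * c0 + (1 - 4 * t + 3 * t ^ 2))
            + (x - c0) * ((1 / 2 : ℝ) ^ 2 + (2 * t - 2) * (1 / 2) + (1 - 4 * t + 3 * t ^ 2))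
            - (1 / 2 - c0) * ((x - c0) * (1 / 2 - x)) := by ring
        have h1 : (1 / 2 - x) * (c0 ^ 2 + (2 * t - 2) * c0 + (1 - 4 * t + 3 * t ^ 2)) ≤ 0 :=
          mul_nonpos_of_nonneg_of_nonpos (by linarith) hP1
        have h2 : (x - c0) * ((1 / 2 : ℝ) ^ 2 + (2 * t - 2) * (1 / 2) + (1 - 4 * t + 3 * t ^ 2)) ≤ 0 :=
          mul_nonpos_of_nonneg_of_nonpos (by linarith) hP2
        have h3 : 0 ≤ (1 / 2 - c0) * ((x - c0) * (1 / 2 - x)) := by
          apply mul_nonneg hpos.le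
          exact mul_nonneg (by linarith) (by linarith)
        have h4 : (1 / 2 - c0) * (x ^ 2 + (2 * t - 2) * x + (1 - 4 * t + 3 * t ^ 2)) ≤ 0 := by
          rw [e]; linarith
        exact nonpos_of_mul_nonpos_right h4 hpos
      · have : x = 1 / 2 := by linarith
        rw [this]; exact hP2
    have e : 16 * t ^ 2 * (1 - t) ^ 2 + 32 * t * (1 - t) * (1 - 2 * t) * (x - t)
        - 16 * x ^ 2 * (1 - x) ^ 2 =
        -(16 * (x - t) ^ 2 * (x ^ 2 + (2 * t - 2) * x + (1 - 4 * t + 3 * t ^ 2))) := by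
      ring
    have : 0 ≤ -(16 * (x - t) ^ 2 * (x ^ 2 + (2 * t - 2) * x + (1 - 4 * t + 3 * t ^ 2))) := by
      have h3 : 0 ≤ 16 * (x - t) ^ 2 := by positivity
      have := mul_nonneg h3 (neg_nonneg.2 hPx)
      linarith
    linarith
  · rw [if_neg hx2] at hR
    have h1 : 0 ≤ 32 * t * (1 - t) * (1 - 2 * t) * (x - 1 / 2) :=
      mul_nonneg hd (by push Not at hx2; linarith)
    norm_num at hmid
    nlinarith

theorem rule_tan (hH : Hyp a b c e Ra Rb Rc Re X Y Z) (hc : InB c cl cu)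
    (he : InB e el eu) (h : ruleTan cl el eu = true) : False := by
  have he0 := hH.he0
  have hc0 : 0 ≤ c := by linarith [hH.hec]
  have hb0 : 0 ≤ b := by linarith [hH.hcb]
  have ha0 : 0 ≤ a := by linarith [hH.hba]
  have hel : (el : ℝ) ≤ 4096 := by
    have := hH.hsum
    have h2 := he.1
    linarith
  have hel' : el ≤ DD := by
    have : el ≤ 4096 := by exact_mod_cast hel
    simpa [DD] using this
  unfold ruleTan at h
  simp only [Bool.and_eq_true] at h
  obtain ⟨⟨h1, h2⟩, h3⟩ := h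
  have h1' := Nat.le_of_ble_eq_true h1
  have h2' := Nat.le_of_ble_eq_true h2
  have h3' := Nat.le_of_ble_eq_true h3
  set T : ℕ := DD - el with hT
  have hTr : (T : ℝ) = 4096 - (el : ℝ) := by
    rw [hT, Nat.cast_sub hel', DD_cast]
  have hT0 : (0 : ℝ) ≤ T := Nat.cast_nonneg _
  have hT1 : (T : ℝ) ≤ 4096 := by
    have : (0 : ℝ) ≤ el := Nat.cast_nonneg _
    linarith
  set t : ℝ := (T : ℝ) / (3 * 4096) with ht
  have htT : t * (3 * 4096) = T := by rw [ht]; field_simp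
  have ht0 : 0 ≤ t := by rw [ht]; positivity
  have ht1 : t ≤ 1 / 2 := by rw [ht, div_le_iff₀ (by norm_num)]; linarith
  set c0 : ℝ := (cl : ℝ) / 4096 with hc0'
  have hc00 : c0 * 4096 = cl := by rw [hc0']; field_simp
  have hcx : c0 ≤ c := by
    rw [hc0', div_le_iff₀ (by norm_num)]
    exact hc.1
  have hP1 : c0 ^ 2 + (2 * t - 2) * c0 + (1 - 4 * t + 3 * t ^ 2) ≤ 0 := by
    have hR : (3 : ℝ) * ((cl : ℝ) * cl) + 2 * T * cl + 3 * (4096 * 4096) + T * T ≤
        6 * 4096 * cl + 4 * T * 4096 := by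
      have : ((3 * (cl * cl) + 2 * T * cl + 3 * (DD * DD) + T * T : ℕ) : ℝ) ≤
          ((6 * DD * cl + 4 * T * DD : ℕ) : ℝ) := Nat.cast_le.2 h1'
      push_cast at this
      rwa [DD_cast] at this
    rw [← hc00, ← htT] at hR
    have hpos : (0 : ℝ) < 3 * 4096 ^ 2 := by norm_num
    nlinarith
  have hP2 : (1 / 2 : ℝ) ^ 2 + (2 * t - 2) * (1 / 2) + (1 - 4 * t + 3 * t ^ 2) ≤ 0 := by
    have hR : (3 : ℝ) * (4096 * 4096) + 4 * (T * T) ≤ 12 * T * 4096 := by
      have : ((3 * (DD * DD) + 4 * (T * T) : ℕ) : ℝ) ≤ ((12 * T * DD : ℕ) : ℝ) := Nat.cast_le.2 h2'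
      push_cast at this
      rwa [DD_cast] at this
    rw [← htT] at hR
    nlinarith
  have hRa := tangent_line ht0 ht1 (hcx.trans (hH.hcb.trans hH.hba)) ha0 hP1 hP2 hH.ha
  have hRb := tangent_line ht0 ht1 (hcx.trans hH.hcb) hb0 hP1 hP2 hH.hb
  have hRc := tangent_line ht0 ht1 hcx hc0 hP1 hP2 hH.hc
  have hRe := R_le_UN hH.he he0 he.2
  have hd : 0 ≤ 32 * t * (1 - t) * (1 - 2 * t) := by
    have h1 : 0 ≤ 1 - t := by linarith
    have h2 : 0 ≤ 1 - 2 * t := by linarith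
    positivity
  have hsum3 : a + b + c - 3 * t ≤ 0 := by
    have := hH.hsum
    have h5 := he.1
    have h6 : 3 * t = 1 - (el : ℝ) / 4096 := by
      rw [ht, hTr]; field_simp
    have h7 : (el : ℝ) / 4096 ≤ e := by rw [div_le_iff₀ (by norm_num)]; exact h5
    linarith
  have hthree : Ra + Rb + Rc ≤ 3 * (16 * t ^ 2 * (1 - t) ^ 2) := by
    have := mul_nonpos_of_nonneg_of_nonpos hd hsum3
    nlinarith
  have hfin : (80000 : ℝ) * ((T : ℝ) * T) * ((3 * 4096 - (T : ℝ)) * (3 * 4096 - (T : ℝ))) + 108 * ((UN eu : ℕ) : ℝ)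
      ≤ 243 * (1250 * 4096 ^ 4) := by
    have e1 : ((3 * DD - T : ℕ) : ℝ) = 3 * 4096 - (T : ℝ) := by
      rw [Nat.cast_sub (by simp only [DD] at hT ⊢; omega)]
      push_cast
      rw [DD_cast]
    have : ((80000 * (T * T) * ((3 * DD - T) * (3 * DD - T)) + 108 * UN eu : ℕ) : ℝ) ≤
        ((243 * SS : ℕ) : ℝ) := Nat.cast_le.2 h3'
    push_cast at this
    rw [SS_cast] at this
    rw [← e1]
    exact_mod_cast this
  rw [← htT] at hfin
  have hT' := hH.hT
  have e2 : (80000 : ℝ) * (t * (3 * 4096) * (t * (3 * 4096))) *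
      ((3 * 4096 - t * (3 * 4096)) * (3 * 4096 - t * (3 * 4096))) =
      108 * (1250 * 4096 ^ 4) * (3 * (16 * t ^ 2 * (1 - t) ^ 2)) := by ring
  rw [e2] at hfin
  have hS : (0 : ℝ) < 1250 * 4096 ^ 4 := by positivity
  nlinarith

/-- Soundness of one box. -/
theorem leaf_sound (hH : Hyp a b c e Ra Rb Rc Re X Y Z) (hb : InB b bl bu) (hc : InB c cl cu)
    (he : InB e el eu) (h : leaf bl bu cl cu el eu = true) : False := by
  unfold leaf at h
  simp only [Bool.or_eq_true] at h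
  rcases h with h | h
  · exact rule_empty hH hb hc he h
  · by_cases hd : bl + cl + el ≤ DD
    · have ha : a * 4096 ≤ ((DD - (bl + cl + el) : ℕ) : ℝ) := by
        rw [Nat.cast_sub hd, DD_cast]
        push_cast
        have h1 := hH.hsum
        have h2 := hb.1
        have h3 := hc.1
        have h4 := he.1
        linarith
      rcases h with (h | h) | h
      · exact rule_total hH hb hc he ha h
      · exact rule_tan hH hc he h
      · exact rule_floor hH hb hc he ha h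
    · have h5 : lt DD (2 * bl + cl + el) = true := by
        apply Nat.ble_eq_true_of_le
        omega
      exact rule_empty hH hb hc he (by simp [ruleEmpty, h5])

/-- Soundness of the recursion. -/
theorem chk_sound (hH : Hyp a b c e Ra Rb Rc Re X Y Z) (fuel : ℕ) :
    ∀ {bl bu cl cu el eu : ℕ}, InB b bl bu → InB c cl cu → InB e el eu →
      chk fuel bl bu cl cu el eu = true → False := by
  induction fuel with
  | zero =>
    intro bl bu cl cu el eu hb hc he h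
    exact leaf_sound hH hb hc he h
  | succ fuel ih =>
    intro bl bu cl cu el eu hb hc he h
    rw [chk] at h
    simp only [Bool.or_eq_true] at h
    rcases h with h | h
    · exact leaf_sound hH hb hc he h
    · cases h1 : (Nat.ble (cu - cl) (bu - bl) && Nat.ble (eu - el) (bu - bl)) with
      | true =>
        rw [h1] at h
        simp only [cond_true, Bool.and_eq_true] at h
        by_cases hm : b * 4096 ≤ (((bl + bu) / 2 : ℕ) : ℝ)
        · exact ih ⟨hb.1, hm⟩ hc he h.1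
        · exact ih ⟨by push Not at hm; exact hm.le, hb.2⟩ hc he h.2
      | false =>
        rw [h1] at h
        simp only [cond_false] at h
        cases h2 : Nat.ble (eu - el) (cu - cl) with
        | true =>
          rw [h2] at h
          simp only [cond_true, Bool.and_eq_true] at h
          by_cases hm : c * 4096 ≤ (((cl + cu) / 2 : ℕ) : ℝ)
          · exact ih hb ⟨hc.1, hm⟩ he h.1
          · exact ih hb ⟨by push Not at hm; exact hm.le, hc.2⟩ he h.2
        | false =>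
          rw [h2] at h
          simp only [cond_false, Bool.and_eq_true] at h
          by_cases hm : e * 4096 ≤ (((el + eu) / 2 : ℕ) : ℝ)
          · exact ih hb hc ⟨he.1, hm⟩ h.1
          · exact ih hb hc ⟨by push Not at hm; exact hm.le, he.2⟩ h.2

/-- The tangent at the regular point. -/
theorem tangent_quarter {R x : ℝ} (hx : 564 / 4096 ≤ x) (hR : R ≤ Ur x) : R ≤ 3 * x - 3 / 16 := by
  unfold Ur at hR
  by_cases hx2 : x ≤ 1 / 2
  · rw [if_pos hx2] at hR
    have hR2 := hR.trans (min_le_left _ _)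
    have hq : 0 ≤ -16 * x ^ 2 + 24 * x - 3 := by nlinarith
    have e : 3 * x - 3 / 16 - 16 * x ^ 2 * (1 - x) ^ 2 = (x - 1 / 4) ^ 2 * (-16 * x ^ 2 + 24 * x - 3) := by ring
    have : 0 ≤ (x - 1 / 4) ^ 2 * (-16 * x ^ 2 + 24 * x - 3) := mul_nonneg (sq_nonneg _) hq
    linarith
  · rw [if_neg hx2] at hR
    push Not at hx2
    linarith

/-- **The closure.** -/
theorem closure (hH : Hyp a b c e Ra Rb Rc Re X Y Z) : False := by
  have he0 := hH.he0
  have hc0 : 0 ≤ c := by linarith [hH.hec]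
  have hb0 : 0 ≤ b := by linarith [hH.hcb]
  have hsum := hH.hsum
  have hcb := hH.hcb
  have hba := hH.hba
  by_cases he : 564 / 4096 ≤ e
  · have h1 := tangent_quarter (by linarith [hH.hec, hH.hcb, hH.hba]) hH.ha
    have h2 := tangent_quarter (by linarith [hH.hec, hH.hcb]) hH.hb
    have h3 := tangent_quarter (by linarith [hH.hec]) hH.hc
    have h4 := tangent_quarter he hH.he
    have := hH.hT
    linarith
  · push Not at he
    refine chk_sound hH 30 (bl := 0) (bu := 2048) (cl := 0) (cu := 2048) (el := 0) (eu := 564)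
      ⟨?_, ?_⟩ ⟨?_, ?_⟩ ⟨?_, ?_⟩ chk_all
    · push_cast; positivity
    · push_cast; linarith
    · push_cast; positivity
    · push_cast; linarith
    · push_cast; positivity
    · push_cast; linarith

end Vale.Agent.Lib.P226.K4Grid
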