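import Vale.Agent.Lib.P226K4.Fail
import Vale.Agent.Lib.P226K4.Floor
import Vale.Agent.Lib.P226K.CapOdd
import Vale.Agent.Lib.P226K.PThree
import Vale.Agent.Lib.P226K.Extremal
import Vale.Agent.Lib.P226K4.Num

/-!
The propeller inequality for four cells: a new proof by an extremal fixed point, the hazard bound,
the cap inequality in `ℝ³` and a tent floor.
-/

open MeasureTheory ProbabilityTheory

namespace Vale.Agent.Lib.P226

variable {d n : ℕ}

/-- A relabeling of an extremal family is extremal. -/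
theorem Extremal.comp {c K : ℝ} [NeZero n] {y : Fin (n + 1) → E d} {B : Fin (n + 1) → Set (E d)}
    (hE : Extremal c y B K) (σ : Equiv.Perm (Fin (n + 1))) : Extremal c (y ∘ σ) (B ∘ σ) K := by
  obtain ⟨hK, hKc, hsy, hTy, hWy, hB, hnz, hO, hC, hobt⟩ := hE
  refine ⟨hK, hKc, ?_, ?_, ?_, ⟨?_, ?_, ?_⟩, ?_, ?_, ?_, ?_⟩
  · simpa using (Equiv.sum_comp σ y).trans hsy
  · have : TT (y ∘ σ) = TT y := by
      unfold TT
      exact Equiv.sum_comp σ (fun i => ‖y i‖ ^ 2)
    rw [this, hTy]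
  · rw [W_comp_perm, hWy]
  · exact fun i => hB.meas _
  · intro i j hij
    exact hB.disj (fun e => hij (σ.injective e))
  · apply Set.eq_univ_of_forall
    intro x
    have hx : x ∈ ⋃ i, B i := by rw [hB.cover]; trivial
    obtain ⟨i, hi⟩ := Set.mem_iUnion.mp hx
    refine Set.mem_iUnion.mpr ⟨σ.symm i, ?_⟩
    simpa using hi
  · exact fun i => hnz _
  · intro i x hx
    apply hO
    intro j hj
    have h1 : σ.symm j ≠ i := fun e => hj (by rw [← e]; simp)
    have := hx (σ.symm j) h1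
    simpa using this
  · intro i x hx j
    exact hC _ x hx _
  · intro i j hij
    exact hobt _ _ (fun e => hij (σ.injective e))

/-- Cap function bound from the two inequalities at a vertex. -/
theorem R_le_Ur {R r q : ℝ} (hR : R = r ^ 2) (hr : 0 ≤ r) (hq : 0 ≤ q)
    (hq1 : R < 4 * Real.pi * q ^ 2)
    (hq2 : ∀ s : ℝ, 0 ≤ s → s ≤ 1 → r ≤ 4 * s * q + (1 - s) ^ 2) :
    R ≤ K4Grid.Ur q := by
  unfold K4Grid.Ur
  by_cases hq3 : q ≤ 1 / 2
  · rw [if_pos hq3]
    refine le_min ?_ ?_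
    · have h1 := hq2 (1 - 2 * q) (by linarith) (by linarith)
      have h2 : r ≤ 4 * (q * (1 - q)) := by nlinarith
      have h3 : r ^ 2 ≤ (4 * (q * (1 - q))) ^ 2 := pow_le_pow_left₀ hr h2 2
      rw [hR]
      nlinarith
    · have h1 := Real.pi_lt_d4
      have h2 : 0 ≤ q ^ 2 := sq_nonneg q
      nlinarith
  · rw [if_neg hq3]
    have h1 := hq2 0 le_rfl (by norm_num)
    have h2 : r ≤ 1 := by simpa using h1
    rw [hR]
    nlinarith

/-- The real computation behind the tent floor. -/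
theorem floor_real {R0 Dv e2 rest G : ℝ} (hR0 : 0 < R0) (hD : 0 < Dv) (hDeq : Dv = R0 * e2 + rest)
    (hrest : 0 ≤ rest) (hgain : (2 / 3) * R0 < G)
    (hG : G ≤ (32 / (9 * Real.pi)) * R0 ^ 2 / Real.sqrt Dv) : e2 < 2883 / 1000 * R0 := by
  have hpi : 0 < Real.pi := Real.pi_pos
  have hsD : 0 < Real.sqrt Dv := Real.sqrt_pos.2 hD
  have hmain := hgain.trans_le hG
  have h5 : (2 / 3) * R0 * Real.sqrt Dv < (32 / (9 * Real.pi)) * R0 ^ 2 := by
    rwa [lt_div_iff₀ hsD] at hmain
  have h6 : Real.sqrt Dv < (16 / (3 * Real.pi)) * R0 := by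
    have e : (32 / (9 * Real.pi)) * R0 ^ 2 = (2 / 3) * R0 * ((16 / (3 * Real.pi)) * R0) := by
      field_simp
      ring
    rw [e] at h5
    exact lt_of_mul_lt_mul_left h5 (by positivity)
  have h7 : Dv < ((16 / (3 * Real.pi)) * R0) ^ 2 := by
    have h8 := Real.sq_sqrt hD.le
    have h9 : Real.sqrt Dv ^ 2 < ((16 / (3 * Real.pi)) * R0) ^ 2 :=
      pow_lt_pow_left₀ h6 hsD.le (by norm_num)
    rwa [h8] at h9
  have h10 : (16 / (3 * Real.pi)) ^ 2 ≤ 2883 / 1000 := by
    have h11 := Real.pi_gt_d4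
    have h12 : 16 / (3 * Real.pi) ≤ 16 / (3 * 3.1415) := by
      apply div_le_div_of_nonneg_left (by norm_num) (by norm_num) (by linarith)
    have h13 : (16 / (3 * Real.pi)) ^ 2 ≤ (16 / (3 * 3.1415)) ^ 2 :=
      pow_le_pow_left₀ (by positivity) h12 2
    refine h13.trans ?_
    norm_num
  have h14 : Dv < 2883 / 1000 * R0 ^ 2 := by
    have : ((16 / (3 * Real.pi)) * R0) ^ 2 = (16 / (3 * Real.pi)) ^ 2 * R0 ^ 2 := by ring
    rw [this] at h7
    have h15 : 0 ≤ R0 ^ 2 := sq_nonneg R0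
    nlinarith
  have h17 : R0 * e2 < R0 * (2883 / 1000 * R0) := by
    have : R0 * (2883 / 1000 * R0) = 2883 / 1000 * R0 ^ 2 := by ring
    rw [this]
    linarith
  exact lt_of_mul_lt_mul_left h17 hR0.le

/-- **The propeller inequality for four cells.** -/
theorem partitionBound_four : PartitionBound 4 := by
  intro dA A hA
  by_contra hcon
  push Not at hcon
  have h3 : PBc 3 (9 / (8 * Real.pi)) := Vale.Agent.Lib.P226K.partition_three
  have hpi : 0 < Real.pi := Real.pi_pos
  have h2pi : 0 < 2 * Real.pi := by positivity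
  -- the starting family, embedded in `ℝ³`
  set y1 : Fin 4 → E dA := fun i => nz (A i) with hy1
  have hs1 : ∑ i, y1 i = 0 := sum_nz_eq_zero hA
  have hT1 : TT y1 = 2 * Real.pi * FF A := TT_nz_eq A
  have hW1 : TT y1 ≤ W y1 := by
    have := sum_inner_nz_le_W hA y1
    refine le_trans (le_of_eq ?_) this
    simp [TT, hy1]
  obtain ⟨y0, hgram⟩ := Vale.Agent.Lib.P226K.exists_embed (n := 3) (D := 3) le_rfl y1 hs1
  have hs0 : ∑ i, y0 i = 0 := by
    have h1 := norm_sum_sq_eq_of_gram y1 y0 hgram (fun _ => 1)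
    simp only [one_smul] at h1
    rw [hs1, norm_zero] at h1
    have h2 : ‖∑ i, y0 i‖ ^ 2 = 0 := by
      rw [← h1]; norm_num
    simpa using h2
  have hT0 : TT y0 = TT y1 := by
    unfold TT
    refine Finset.sum_congr rfl fun i _ => ?_
    have := hgram i i
    rw [real_inner_self_eq_norm_sq, real_inner_self_eq_norm_sq] at this
    exact this.symm
  have hW0 : W y0 = W y1 := (W_congr_gram y1 y0 hgram).symm
  have hcon' : 2 * Real.pi * (9 / (8 * Real.pi)) < TT y0 := by
    rw [hT0, hT1]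
    exact mul_lt_mul_of_pos_left hcon h2pi
  obtain ⟨K, y2, B2, hE2⟩ := exists_extremal (n := 3) (by norm_num) h3 hs0
    (by rw [hT0, hW0]; exact hW1) hcon'
  -- sort the vertices by the measure of the cells
  let σ : Equiv.Perm (Fin 4) := Tuple.sort (fun i => (gam 3).real (openCell y2 i))
  have hσ : Monotone ((fun i => (gam 3).real (openCell y2 i)) ∘ σ) :=
    Tuple.monotone_sort (fun i => (gam 3).real (openCell y2 i))
  have hE := hE2.comp σ
  set y : Fin 4 → E 3 := y2 ∘ σ with hy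
  set q : Fin 4 → ℝ := fun i => (gam 3).real (openCell y i) with hq
  have hqmono : Monotone q := by
    intro i j hij
    have := hσ hij
    simp only [Function.comp_apply] at this
    simp only [hq]
    rw [hy, openCell_comp, openCell_comp]
    exact this
  have hq0 : ∀ i, 0 ≤ q i := fun i => measureReal_nonneg
  have hqsum : ∑ i, q i ≤ 1 := hE.sum_q_le (by norm_num) h3
  have hv := fun i => hE.vertex (n := 3) (by norm_num) h3 i
  -- the numbers
  have hKpos := hE.Kpos
  have hKc := hE.Kc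
  have hKc' : 3 / 2 < K := by
    have : Real.sqrt (2 * Real.pi * (9 / (8 * Real.pi))) = 3 / 2 := by
      have e : 2 * Real.pi * (9 / (8 * Real.pi)) = (3 / 2) ^ 2 := by
        field_simp
        norm_num
      rw [e, Real.sqrt_sq (by norm_num)]
    rwa [this] at hKc
  have hTT : 9 / 4 < ∑ i, ‖y i‖ ^ 2 := by
    have : TT y = K ^ 2 := hE.tt
    unfold TT at this
    rw [this]
    nlinarith
  -- the weights
  have hsum4 : y 0 + y 1 + y 2 + y 3 = 0 := by
    have := hE.sum
    rw [Fin.sum_univ_four] at this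
    exact this
  have hob := hE.obtuse
  set w01 : ℝ := -inner ℝ (y 0) (y 1) with hw01
  set w02 : ℝ := -inner ℝ (y 0) (y 2) with hw02
  set w03 : ℝ := -inner ℝ (y 0) (y 3) with hw03
  set w12 : ℝ := -inner ℝ (y 1) (y 2) with hw12
  set w13 : ℝ := -inner ℝ (y 1) (y 3) with hw13
  set w23 : ℝ := -inner ℝ (y 2) (y 3) with hw23
  have p01 : 0 < w01 := by have := hob 0 1 (by decide); linarith
  have p02 : 0 < w02 := by have := hob 0 2 (by decide); linarith
  have p03 : 0 < w03 := by have := hob 0 3 (by decide); linarith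
  have p12 : 0 < w12 := by have := hob 1 2 (by decide); linarith
  have p13 : 0 < w13 := by have := hob 1 3 (by decide); linarith
  have p23 : 0 < w23 := by have := hob 2 3 (by decide); linarith
  have expand : ∀ u : E 3, (inner ℝ u (y 0) : ℝ) + inner ℝ u (y 1) + inner ℝ u (y 2) + inner ℝ u (y 3) = 0 := by
    intro u
    have := congrArg (fun p => (inner ℝ u p : ℝ)) hsum4
    simpa [inner_add_right] using this
  have hR0 : ‖y 0‖ ^ 2 = w01 + w02 + w03 := by
    have := expand (y 0)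
    rw [real_inner_self_eq_norm_sq] at this
    rw [hw01, hw02, hw03]; linarith
  have hR1 : ‖y 1‖ ^ 2 = w01 + w12 + w13 := by
    have := expand (y 1)
    rw [real_inner_self_eq_norm_sq, real_inner_comm] at this
    rw [hw01, hw12, hw13]; linarith
  have hR2 : ‖y 2‖ ^ 2 = w02 + w12 + w23 := by
    have := expand (y 2)
    rw [real_inner_self_eq_norm_sq, real_inner_comm (y 0), real_inner_comm (y 1)] at this
    rw [hw02, hw12, hw23]; linarith
  have hR3 : ‖y 3‖ ^ 2 = w03 + w13 + w23 := by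
    have := expand (y 3)
    rw [real_inner_self_eq_norm_sq, real_inner_comm (y 0), real_inner_comm (y 1), real_inner_comm (y 2)] at this
    rw [hw03, hw13, hw23]; linarith
  -- caps
  have hcap : ∀ i, ‖y i‖ ^ 2 ≤ K4Grid.Ur (q i) := by
    intro i
    refine R_le_Ur rfl (norm_nonneg _) (hq0 i) (hv i).2.2.2 ?_
    intro s hs0 hs1
    have := Vale.Agent.Lib.P226K.cap_three (measurableSet_openCell y i) (openCell_cone y i) hs0 hs1
    rwa [(hv i).1] at this
  -- the tent floor at the vertex `0`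
  have hfloor : w12 * w13 + w12 * w23 + w13 * w23 < 2883 / 1000 * ‖y 0‖ ^ 2 := by
    set z : E 3 := y 0 with hz
    let v : Fin 3 → E 3 := fun l => y ((0 : Fin 4).succAbove l)
    have hv0 : v 0 = y 1 := rfl
    have hv1 : v 1 = y 2 := rfl
    have hv2 : v 2 = y 3 := rfl
    have hsv : z + ∑ l, v l = 0 := by
      rw [Fin.sum_univ_three, hv0, hv1, hv2]
      rw [← hsum4]; abel
    have hR0pos : 0 < ‖z‖ ^ 2 := by rw [hR0]; positivity
    have e01 : (inner ℝ z (v 0) : ℝ) = -w01 := by rw [hw01]; simp [hv0, hz]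
    have e02 : (inner ℝ z (v 1) : ℝ) = -w02 := by rw [hw02]; simp [hv1, hz]
    have e12 : (inner ℝ (v 0) (v 1) : ℝ) = -w12 := by rw [hw12]; simp [hv0, hv1]
    have e1 : ‖v 0‖ ^ 2 = w01 + w12 + w13 := by rw [hv0]; exact hR1
    have e2 : ‖v 1‖ ^ 2 = w02 + w12 + w23 := by rw [hv1]; exact hR2
    have hDeq : det3 (‖z‖ ^ 2) (‖v 0‖ ^ 2) (‖v 1‖ ^ 2) (inner ℝ z (v 0)) (inner ℝ z (v 1))
        (inner ℝ (v 0) (v 1)) =
        (w01 + w02 + w03) * (w12 * w13 + w12 * w23 + w13 * w23) + w01 * w02 * w03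
        + w01 * w02 * (w13 + w23) + w01 * w03 * (w12 + w23) + w02 * w03 * (w12 + w13) := by
      rw [e01, e02, e12, e1, e2, hR0]
      unfold det3
      ring
    set Dv := det3 (‖z‖ ^ 2) (‖v 0‖ ^ 2) (‖v 1‖ ^ 2) (inner ℝ z (v 0)) (inner ℝ z (v 1))
        (inner ℝ (v 0) (v 1)) with hDv
    have hDpos : 0 < Dv := by rw [hDeq]; positivity
    have hm : 0 < ‖z‖ ^ 2 * ‖v 0‖ ^ 2 - (inner ℝ z (v 0) : ℝ) ^ 2 := by
      rw [e01, e1, hR0]
      have : (w01 + w02 + w03) * (w01 + w12 + w13) - (-w01) ^ 2 =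
          w01 * (w12 + w13) + (w02 + w03) * (w01 + w12 + w13) := by ring
      rw [this]; positivity
    have hfl := floor4 z v hsv hR0pos hm hDpos
    have hgain := (hv 0).2.2.1
    have hgain' : (2 / 3) * ‖z‖ ^ 2 <
        Real.sqrt (2 * Real.pi) * ∫ x, max 0 (inner ℝ x z - mx v x) ∂(gam 3) := by
      have e3 : (((3 : ℕ) : ℝ) + 1) / ((3 : ℕ) : ℝ) * ‖y 0‖ ^ 2 / 2 = (2 / 3) * ‖y 0‖ ^ 2 := by
        push_cast; ring
      rw [e3] at hgain
      exact hgain
    have hz4 : ‖z‖ ^ 4 = (‖z‖ ^ 2) ^ 2 := by ring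
    rw [hz4] at hfl
    refine floor_real hR0pos hDpos (rest := w01 * w02 * w03
        + w01 * w02 * (w13 + w23) + w01 * w03 * (w12 + w23) + w02 * w03 * (w12 + w13)) ?_ (by positivity) hgain' hfl
    rw [hDeq, hR0]
    ring
  -- the closure
  have hTsum : 9 / 4 < ‖y 3‖ ^ 2 + ‖y 2‖ ^ 2 + ‖y 1‖ ^ 2 + ‖y 0‖ ^ 2 := by
    rw [Fin.sum_univ_four] at hTT
    linarith
  have hqs : q 3 + q 2 + q 1 + q 0 ≤ 1 := by
    rw [Fin.sum_univ_four] at hqsum
    linarith
  have hH : K4Grid.Hyp (q 3) (q 2) (q 1) (q 0) (‖y 3‖ ^ 2) (‖y 2‖ ^ 2) (‖y 1‖ ^ 2) (‖y 0‖ ^ 2)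
      w23 w13 w12 :=
    { he0 := hq0 0
      hec := hqmono (by decide)
      hcb := hqmono (by decide)
      hba := hqmono (by decide)
      hsum := hqs
      ha := hcap 3
      hb := hcap 2
      hc := hcap 1
      he := hcap 0
      hT := hTsum
      hX0 := p23.le
      hY0 := p13.le
      hZ0 := p12.le
      hX := by rw [hR0, hR1, hR2, hR3] at *; linarith
      hY := by rw [hR0, hR1, hR2, hR3] at *; linarith
      hZ := by rw [hR0, hR1, hR2, hR3] at *; linarith
      hF := by nlinarith [hfloor] }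
  exact K4Grid.closure hH

end Vale.Agent.Lib.P226
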