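import Vale.Agent.Lib.P226K.PThree
import Vale.Agent.Lib.P226K.Extremal
import Vale.Agent.Lib.P226.CapDBound

/-! Three basic facts for the unconditional proof of P(4): the propeller bound for three cells,
the isometric embedding of centered vectors, and the cap inequality for cones in `ℝ^3`. -/

open MeasureTheory ProbabilityTheory Real Set

namespace Vale.Agent.Lib.P226

/-- P(3), from the exact width of three points. -/
theorem partitionBound_three : PartitionBound 3 := Vale.Agent.Lib.P226K.partition_three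

/-- `k+1` centered vectors embed isometrically into `ℝ^k`. -/
theorem exists_embed {k d : ℕ} (y : Fin (k + 1) → E d) (h : ∑ i, y i = 0) :
    ∃ v : Fin (k + 1) → E k, ∀ i j, inner ℝ (y i) (y j) = (inner ℝ (v i) (v j) : ℝ) :=
  Vale.Agent.Lib.P226K.exists_embed le_rfl y h

lemma capA_two : capA 2 = 2 * π := by
  unfold capA
  have e : ((2:ℕ):ℝ) / 2 + 1 = ((1:ℕ):ℝ) + 1 := by norm_num
  rw [e, Real.Gamma_nat_eq_factorial]
  have hs : √π ^ 2 = π := Real.sq_sqrt pi_nonneg
  rw [hs]
  norm_num [Nat.factorial]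

/-- angular integral in dimension 3 -/
lemma capDK_two {β : ℝ} (h1 : β ≤ π / 2) :
    capDK 2 β = 1 / 2 - sin β + sin β ^ 2 / 2 := by
  unfold capDK
  rw [integral_Ioc_eq_integral_Ioo.symm, ← intervalIntegral.integral_of_le h1]
  have hd : ∀ θ ∈ uIcc β (π / 2), HasDerivAt
      (fun θ => sin θ ^ 2 / 2 - sin β * sin θ)
      (cos θ ^ (2 - 1) * (sin θ - sin β)) θ := by
    intro θ _
    have h2 := Real.hasDerivAt_sin θ
    have h3 := ((h2.fun_pow 2).div_const 2).fun_sub (h2.const_mul (sin β))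
    refine h3.congr_deriv ?_
    norm_num
    ring
  rw [intervalIntegral.integral_eq_sub_of_hasDerivAt hd]
  · simp only [sin_pi_div_two]
    ring
  · apply Continuous.intervalIntegrable
    fun_prop

/-- Cap inequality for cones in `ℝ^3`, from `capD_bound` with `m = 2`. -/
theorem cap3_bound {C : Set (E 3)} (hC : MeasurableSet C)
    (hcone : ∀ x ∈ C, ∀ c : ℝ, 0 < c → c • x ∈ C) {s : ℝ} (h0 : 0 ≤ s) (h1 : s ≤ 1) :
    ‖nz C‖ ≤ 4 * s * (gam 3).real C + (1 - s) ^ 2 := by
  have hb0 : 0 ≤ arcsin s := Real.arcsin_nonneg.2 h0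
  have hb1 : arcsin s ≤ π / 2 := Real.arcsin_le_pi_div_two s
  have hsin : sin (arcsin s) = s := Real.sin_arcsin (by linarith) h1
  have h := capD_bound (m := 2) (by norm_num) hC hcone hb0 hb1
  rw [capDK_two hb1, hsin, rM_two, rM_three, capA_two] at h
  have e1 : √(2 * π) * (2 / √(π / 2)) = 4 := by
    have h2 := sqrt_two_pi_div sqrt_two_pi_mul
    have h3 : 0 < √(π / 2) := by positivity
    calc √(2 * π) * (2 / √(π / 2)) = (√(2 * π) / √(π / 2)) * 2 := by
          field_simp
      _ = 4 := by rw [h2]; norm_num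
  have e2 : √(2 * π) * (2 * π * capCd 3 * 2) = 2 := by
    unfold capCd
    have h4 := sqrt_two_pi_pow 1
    have h5 : 0 < √(2 * π) := by positivity
    have h6 : √(2 * π) * ((√(2 * π))⁻¹ ^ 3) = ((2 * π) ^ 1)⁻¹ := by
      rw [← h4, inv_pow]
      field_simp
    calc √(2 * π) * (2 * π * (√(2 * π))⁻¹ ^ 3 * 2)
        = (√(2 * π) * ((√(2 * π))⁻¹ ^ 3)) * (4 * π) := by ring
      _ = 2 := by
          rw [h6]
          field_simp
          ring
  calc ‖nz C‖ ≤ _ := h
    _ = (√(2 * π) * (2 / √(π / 2))) * (s * (gam 3).real C)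
        + (√(2 * π) * (2 * π * capCd 3 * 2))
          * (1 / 2 - s + s ^ 2 / 2) := by ring
    _ = _ := by
        rw [e1, e2]
        ring

end Vale.Agent.Lib.P226
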