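import Vale.Agent.Lib.P226R.Main

/-!
Structure of an extremal counterexample to the partition bound with `n + 1` cells, given the bound
with `n` cells: a fixed point of the width functional in dimension `d` with a strictly obtuse Gram
matrix, every vertex of which has a large gain, hence a large cell.
-/

open MeasureTheory ProbabilityTheory

namespace Vale.Agent.Lib.P226

variable {d n : ℕ}

/-- The open Voronoi cell of the vertex `i`. -/
def openCell {k : ℕ} (y : Fin k → E d) (i : Fin k) : Set (E d) :=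
  {x | ∀ j, j ≠ i → (inner ℝ x (y j) : ℝ) < inner ℝ x (y i)}

theorem cellO_eq_openCell (y : Fin (n + 1) → E d) (i : Fin (n + 1)) :
    cellO (y i) (fun l => y (i.succAbove l)) = openCell y i := by
  ext x
  constructor
  · intro hx j hj
    obtain ⟨l, rfl⟩ := Fin.exists_succAbove_eq hj
    exact hx l
  · intro hx l
    exact hx _ (Fin.succAbove_ne i l)

theorem openCell_comp {k : ℕ} (y : Fin k → E d) (σ : Equiv.Perm (Fin k)) (i : Fin k) :
    openCell (y ∘ σ) i = openCell y (σ i) := by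
  ext x
  constructor
  · intro hx j hj
    have h1 : σ.symm j ≠ i := fun e => hj (by rw [← e]; simp)
    have := hx (σ.symm j) h1
    simpa using this
  · intro hx j hj
    exact hx (σ j) (fun e => hj (σ.injective e))

theorem measurableSet_openCell {k : ℕ} (y : Fin k → E d) (i : Fin k) :
    MeasurableSet (openCell y i) := by
  have : openCell y i = ⋂ j, {x | j ≠ i → (inner ℝ x (y j) : ℝ) < inner ℝ x (y i)} := by
    ext x; simp [openCell]
  rw [this]
  refine MeasurableSet.iInter fun j => ?_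
  by_cases hj : j = i
  · simp [hj]
  · simp only [ne_eq, hj, not_false_eq_true, forall_const]
    exact (measurableSet_lt (by fun_prop) (by fun_prop))

theorem openCell_cone {k : ℕ} (y : Fin k → E d) (i : Fin k) :
    ∀ x ∈ openCell y i, ∀ c : ℝ, 0 < c → c • x ∈ openCell y i := by
  intro x hx c hc j hj
  rw [real_inner_smul_left, real_inner_smul_left]
  exact mul_lt_mul_of_pos_left (hx j hj) hc

/-- The data of an extremal fixed point. -/
structure Extremal (c : ℝ) (y : Fin (n + 1) → E d) (B : Fin (n + 1) → Set (E d)) (K : ℝ) : Prop where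
  Kpos : 0 < K
  Kc : Real.sqrt (2 * Real.pi * c) < K
  sum : ∑ i, y i = 0
  tt : TT y = K ^ 2
  wd : W y = K ^ 2
  part : IsPart B
  nz : ∀ i, nz (B i) = y i
  open_sub : ∀ i x, (∀ j, j ≠ i → (inner ℝ x (y j) : ℝ) < inner ℝ x (y i)) → x ∈ B i
  sub_closed : ∀ i, ∀ x ∈ B i, ∀ j, (inner ℝ x (y j) : ℝ) ≤ inner ℝ x (y i)
  obtuse : ∀ i j, i ≠ j → (inner ℝ (y i) (y j) : ℝ) < 0

/-- Existence of an extremal fixed point from a bad partition. -/
theorem exists_extremal {c : ℝ} (hn : 1 ≤ n) (h : PBc n c) {y0 : Fin (n + 1) → E d}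
    (hs0 : ∑ i, y0 i = 0) (hTW : TT y0 ≤ W y0) (hcon : 2 * Real.pi * c < TT y0) :
    ∃ (K : ℝ) (y : Fin (n + 1) → E d) (B : Fin (n + 1) → Set (E d)), Extremal c y B K := by
  haveI : NeZero n := ⟨by omega⟩
  have hc0 : 0 ≤ c := PBc_nonneg (by omega) h
  have hpi : 0 < Real.pi := Real.pi_pos
  have h2pi : 0 < 2 * Real.pi := by positivity
  have hs2pi : 0 < Real.sqrt (2 * Real.pi) := Real.sqrt_pos.mpr h2pi
  have hTpos' : 0 < TT y0 := lt_of_le_of_lt (by positivity) hcon
  obtain ⟨K, y, B, hK, hsy, hW0K, hTy, hWy, hB, hnz, hO, hC⟩ := exists_fixed y0 hs0 hTpos'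
  have hKT : Real.sqrt (TT y0) ≤ K := by
    have h1 : Real.sqrt (TT y0) * Real.sqrt (TT y0) ≤ K * Real.sqrt (TT y0) := by
      rw [Real.mul_self_sqrt hTpos'.le]; exact hTW.trans hW0K
    exact le_of_mul_le_mul_right h1 (Real.sqrt_pos.mpr hTpos')
  have hKc : Real.sqrt (2 * Real.pi * c) < K :=
    lt_of_lt_of_le (Real.sqrt_lt_sqrt (by positivity) hcon) hKT
  have hTB : TT y = 2 * Real.pi * FF B := by
    have : y = fun i => Vale.Agent.Lib.P226.nz (B i) := by ext1 i; exact (hnz i).symm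
    rw [this]; exact TT_nz_eq B
  have hFB : c < FF B := by
    have h1 : 2 * Real.pi * c < 2 * Real.pi * FF B := by
      rw [← hTB, hTy]
      have h2 := Real.sqrt_nonneg (2 * Real.pi * c)
      have h3 := Real.sq_sqrt (show 0 ≤ 2 * Real.pi * c by positivity)
      nlinarith
    exact lt_of_mul_lt_mul_left h1 h2pi.le
  have hobt : ∀ i j, i ≠ j → (inner ℝ (y i) (y j) : ℝ) < 0 := by
    intro i j hij
    by_contra hne
    push Not at hne
    have hin : 0 ≤ (inner ℝ (mom (B i)) (mom (B j)) : ℝ) := by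
      rw [← hnz i, ← hnz j, Vale.Agent.Lib.P226.nz, Vale.Agent.Lib.P226.nz, real_inner_smul_left,
        real_inner_smul_right] at hne
      have h5 := Real.mul_self_sqrt h2pi.le
      by_contra hlt
      push Not at hlt
      have h6 : Real.sqrt (2 * Real.pi) * (Real.sqrt (2 * Real.pi) * (inner ℝ (mom (B i)) (mom (B j)) : ℝ)) < 0 := by
        have := mul_neg_of_pos_of_neg hs2pi hlt
        exact mul_neg_of_pos_of_neg hs2pi this
      linarith
    exact absurd (merge_PBc h hB hij hin) (not_le.mpr hFB)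
  exact ⟨K, y, B, ⟨hK, hKc, hsy, hTy, hWy, hB, hnz, hO, hC, hobt⟩⟩

/-- Facts at a vertex of an extremal fixed point. -/
theorem Extremal.vertex [NeZero n] {c K : ℝ} {y : Fin (n + 1) → E d} {B : Fin (n + 1) → Set (E d)}
    (hn : 2 ≤ n) (h : PBc n c) (hE : Extremal c y B K) (i0 : Fin (n + 1)) :
    Vale.Agent.Lib.P226.nz (openCell y i0) = y i0 ∧ openCell y i0 ⊆ B i0 ∧
    ((n : ℝ) + 1) / n * ‖y i0‖ ^ 2 / 2 <
      Real.sqrt (2 * Real.pi) *
        ∫ x, max 0 (inner ℝ x (y i0) - mx (fun l : Fin n => y (i0.succAbove l)) x) ∂(gam d) ∧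
    ‖y i0‖ ^ 2 < 4 * Real.pi * ((gam d).real (openCell y i0)) ^ 2 := by
  obtain ⟨hK, hKc, hsy, hTy, hWy, hB, hnz, hO, hC, hobt⟩ := hE
  have hpi : 0 < Real.pi := Real.pi_pos
  have h2pi : 0 < 2 * Real.pi := by positivity
  have hnpos : (0 : ℝ) < n := by
    have : (2 : ℝ) ≤ n := by exact_mod_cast hn
    linarith
  set z : E d := y i0 with hz
  set v : Fin n → E d := fun l => y (i0.succAbove l) with hv
  have hsum : z + ∑ l, v l = 0 := by
    rw [← hsy, Fin.sum_univ_succAbove y i0]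
  have hzv : ∀ l, (inner ℝ z (v l) : ℝ) < 0 := fun l =>
    hobt i0 _ (Fin.succAbove_ne i0 l).symm
  have hvv : ∀ l m, l ≠ m → (inner ℝ (v l) (v m) : ℝ) < 0 := fun l m hlm =>
    hobt _ _ (fun e => hlm (Fin.succAbove_right_injective e))
  have hne : z ≠ 0 := by
    intro h0
    have := hzv ⟨0, by omega⟩
    rw [h0] at this
    simp at this
  have hvne : ∀ l, v l ≠ z := by
    intro l he
    have := hzv l
    rw [he, real_inner_self_eq_norm_sq] at this
    nlinarith
  have hcell : cellO z v = openCell y i0 := cellO_eq_openCell y i0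
  have hBO : cellO z v ⊆ B i0 := by
    intro x hx
    apply hO
    rw [hcell] at hx
    exact hx
  have hBC : B i0 ⊆ cellC z v := fun x hx l => hC i0 x hx _
  have hBae : B i0 =ᵐ[gam d] cellO z v := ae_eq_cell hvne hBO hBC
  have hmomO : mom (cellO z v) = mom (B i0) := by
    unfold mom
    exact setIntegral_congr_set hBae.symm
  have hmom : Real.sqrt (2 * Real.pi) • mom (cellO z v) = z := by
    rw [hmomO]; exact hnz i0
  set v' : Fin n → E d := fun l => y (i0.succAbove l) + (1 / (n : ℝ)) • y i0 with hv'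
  set G : ℝ := Real.sqrt (2 * Real.pi) * ∫ x, max 0 (inner ℝ x (y i0) - mx (fun l : Fin n => y (i0.succAbove l)) x) ∂(gam d) with hG
  have hWd : W y = W v' + G := W_del y i0
  have hTd : TT v' = TT y - (((n : ℝ) + 1) / n) * ‖y i0‖ ^ 2 := TT_del y hsy i0
  have hbd := W_le_of_PBc h v'
  have hTv'pos : 0 < TT v' := by
    have hT0' : 0 ≤ TT v' := Finset.sum_nonneg (fun i _ => by positivity)
    refine lt_of_le_of_ne hT0' (fun he => ?_)
    have hall : ∀ l, v' l = 0 := by
      intro l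
      have := (Finset.sum_eq_zero_iff_of_nonneg (fun i _ => by positivity)).mp he.symm l (Finset.mem_univ l)
      simpa using this
    have h01 : (⟨0, by omega⟩ : Fin n) ≠ ⟨1, by omega⟩ := by simp
    have h1 := hvv _ _ h01
    have e1 : v ⟨0, by omega⟩ = -((1 / (n : ℝ)) • z) := eq_neg_of_add_eq_zero_left (hall ⟨0, by omega⟩)
    have e2 : v ⟨1, by omega⟩ = -((1 / (n : ℝ)) • z) := eq_neg_of_add_eq_zero_left (hall ⟨1, by omega⟩)
    rw [e1, e2, inner_neg_neg, real_inner_self_eq_norm_sq] at h1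
    have : 0 ≤ ‖(1 / (n : ℝ)) • z‖ ^ 2 := by positivity
    linarith
  set b : ℝ := (((n : ℝ) + 1) / n) * ‖z‖ ^ 2 with hb
  have hb0 : 0 ≤ b := by positivity
  have hTd' : TT v' = K ^ 2 - b := by rw [hTd, hTy]
  have hbK : b ≤ K ^ 2 := by
    have : 0 ≤ TT v' := hTv'pos.le
    linarith
  have hGlow : b / 2 < G := by
    have h1 : W v' < K * Real.sqrt (TT v') :=
      lt_of_le_of_lt hbd (mul_lt_mul_of_pos_right hKc (Real.sqrt_pos.mpr hTv'pos))
    have h2 := sqrt_sub_le hK hbK hb0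
    rw [← hTd'] at h2
    have h3 : K ^ 2 = W v' + G := by rw [← hWy, hWd]
    linarith
  obtain ⟨u, hu⟩ := exists_dual z v hsum hzv hvv
  have htent := tent_boundR z u v hsum hu hmom
  have hGup : G ≤ (((n : ℝ) + 1) / n) * (2 * Real.pi * ((gam d).real (cellO z v)) ^ 2) := htent
  have hpos : 0 < ((n : ℝ) + 1) / n := by positivity
  have hfin : ((n : ℝ) + 1) / n * ‖z‖ ^ 2 / 2 < ((n : ℝ) + 1) / n * (2 * Real.pi * ((gam d).real (cellO z v)) ^ 2) :=
    lt_of_lt_of_le hGlow hGup
  have hfin2 : ‖z‖ ^ 2 < 4 * Real.pi * ((gam d).real (cellO z v)) ^ 2 := by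
    have : ((n : ℝ) + 1) / n * ‖z‖ ^ 2 < ((n : ℝ) + 1) / n * (4 * Real.pi * ((gam d).real (cellO z v)) ^ 2) := by linarith
    exact lt_of_mul_lt_mul_left this hpos.le
  rw [hcell] at hfin2 hBO hmom
  refine ⟨hmom, hBO, hGlow, hfin2⟩

/-- Sum of the cell measures. -/
theorem Extremal.sum_q_le [NeZero n] {c K : ℝ} {y : Fin (n + 1) → E d} {B : Fin (n + 1) → Set (E d)}
    (hn : 2 ≤ n) (h : PBc n c) (hE : Extremal c y B K) :
    ∑ i, (gam d).real (openCell y i) ≤ 1 := by
  have h1 : ∑ i, (gam d).real (B i) = 1 := sum_real_eq_one hE.part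
  rw [← h1]
  refine Finset.sum_le_sum fun i _ => ?_
  exact measureReal_mono (hE.vertex hn h i).2.1 (by finiteness)

end Vale.Agent.Lib.P226
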